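import Mathlib

/-!
# Depth-three OR-AND-OR circuits, and the explicit code used for P336

Inputs are points of the Boolean cube, written `x : ι → ZMod 2`, where `ι` is the finite set of
variables.  All gates have unbounded fan-in and unbounded fan-out.
-/

namespace Vale.Agent.Lib.P336

/-- An input of a bottom gate: a variable, a negated variable, or a constant. -/
inductive Lit (ι : Type) where
  | pos (i : ι)
  | neg (i : ι)
  | const (b : Bool)
  deriving DecidableEq

/-- The truth value of an input of a bottom gate at the point `x`. -/
def Lit.val {ι : Type} (l : Lit ι) (x : ι → ZMod 2) : Prop :=
  match l with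
  | Lit.pos i => x i = 1
  | Lit.neg i => x i = 0
  | Lit.const b => b = true

/-- A bottom OR gate, given as the finite set of its inputs. -/
abbrev OrGate (ι : Type) := Finset (Lit ι)

/-- A bottom OR gate is true at `x` when one of its inputs is true at `x`. -/
def OrGate.val {ι : Type} (c : OrGate ι) (x : ι → ZMod 2) : Prop :=
  ∃ l ∈ c, l.val x

/-- A middle AND gate, given as the finite set of bottom gates it reads. -/
abbrev AndGate (ι : Type) := Finset (OrGate ι)

/-- A middle AND gate is true at `x` when all the bottom gates it reads are true at `x`. -/
def AndGate.val {ι : Type} (G : AndGate ι) (x : ι → ZMod 2) : Prop :=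
  ∀ c ∈ G, OrGate.val c x

/-- A depth-three OR-AND-OR circuit, given as the finite set of middle gates read by its top
OR gate.  Two gates with the same inputs compute the same function, so nothing is lost by
treating gates as sets; fan-out is free because a bottom gate is counted once. -/
structure Circuit (ι : Type) where
  middle : Finset (AndGate ι)

/-- The function computed by a circuit. -/
def Circuit.val {ι : Type} (C : Circuit ι) (x : ι → ZMod 2) : Prop :=
  ∃ G ∈ C.middle, AndGate.val G x

/-- The set of distinct bottom gates of a circuit. -/
def Circuit.bottom {ι : Type} [DecidableEq ι] (C : Circuit ι) : Finset (OrGate ι) :=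
  C.middle.biUnion id

/-- The total number of gates of a circuit: bottom gates, middle gates and the top gate. -/
def Circuit.size {ι : Type} [DecidableEq ι] (C : Circuit ι) : ℕ :=
  C.bottom.card + C.middle.card + 1

/-- The restricted class of circuits: the set of points accepted by each middle AND gate is an
affine subspace of the cube over the two-element field (or empty).  A subset of a vector space
over the two-element field is an affine subspace or empty exactly when it is closed under
`x, y, z ↦ x + y + z`. -/
def Circuit.AffineAnds {ι : Type} (C : Circuit ι) : Prop :=
  ∀ G ∈ C.middle, ∀ x y z : ι → ZMod 2,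
    AndGate.val G x → AndGate.val G y → AndGate.val G z → AndGate.val G (x + y + z)

/-- The explicit code.  Let `F` be a finite field and let `κ` be a natural number.  The variables
are indexed by triples `(u, v, b)` of elements of `F`.  A point `x` is in the code when, for all
`i, j < κ`, the sum of `b * u ^ i * v ^ j` over the triples with `x (u, v, b) = 1` vanishes in `F`.
These are `κ ^ 2` linear equations over `F`, so membership is tested in polynomial time. -/
def InCode (F : Type) [Field F] [Fintype F] (κ : ℕ) (x : F × F × F → ZMod 2) : Prop :=
  ∀ i j : ℕ, i < κ → j < κ →
    ∑ p : F × F × F, (if x p = 1 then p.2.2 * p.1 ^ i * p.2.1 ^ j else 0) = 0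

end Vale.Agent.Lib.P336
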