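import Mathlib
import Vale.Agent.Lib.P336.Defs

/-!
# Proofs for the depth-three lower bound against circuits whose AND gates accept affine sets
-/

namespace Vale.Agent.Lib.P336
open Module Finset
open scoped Matrix

variable {ι : Type} [Fintype ι] [DecidableEq ι]

/-- The orthogonal complement for the standard dot product. -/
def perp (L : Submodule (ZMod 2) (ι → ZMod 2)) : Submodule (ZMod 2) (ι → ZMod 2) where
  carrier := {x | ∀ u ∈ L, u ⬝ᵥ x = 0}
  add_mem' := by
    intro a b ha hb u hu
    simp only [Set.mem_ofPred_eq] at ha hb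
    rw [dotProduct_add, ha u hu, hb u hu, add_zero]
  zero_mem' := by
    intro u _
    simp
  smul_mem' := by
    intro c x hx u hu
    simp only [Set.mem_ofPred_eq] at hx
    rw [dotProduct_smul, hx u hu, smul_zero]

theorem mem_perp {L : Submodule (ZMod 2) (ι → ZMod 2)} {x : ι → ZMod 2} :
    x ∈ perp L ↔ ∀ u ∈ L, u ⬝ᵥ x = 0 := Iff.rfl

noncomputable def dotForm : LinearMap.BilinForm (ZMod 2) (ι → ZMod 2) :=
  Matrix.toBilin' (1 : Matrix ι ι (ZMod 2))

theorem dotForm_apply (u x : ι → ZMod 2) : (dotForm u x) = u ⬝ᵥ x := by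
  simp [dotForm, Matrix.toBilin'_apply']

theorem dotForm_nondeg : (dotForm : LinearMap.BilinForm (ZMod 2) (ι → ZMod 2)).Nondegenerate := by
  apply LinearMap.BilinForm.nondegenerate_toBilin'_of_det_ne_zero'
  simp

theorem perp_eq_orthogonal (L : Submodule (ZMod 2) (ι → ZMod 2)) :
    perp L = dotForm.orthogonal L := by
  ext x
  simp [mem_perp, LinearMap.BilinForm.mem_orthogonal_iff, dotForm_apply]

theorem finrank_perp (L : Submodule (ZMod 2) (ι → ZMod 2)) :
    finrank (ZMod 2) (perp L) = Fintype.card ι - finrank (ZMod 2) L := by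
  rw [perp_eq_orthogonal, LinearMap.BilinForm.finrank_orthogonal dotForm_nondeg]
  simp

theorem finrank_le_card (L : Submodule (ZMod 2) (ι → ZMod 2)) :
    finrank (ZMod 2) L ≤ Fintype.card ι := by
  have := Submodule.finrank_le L
  simpa using this

theorem perp_perp (L : Submodule (ZMod 2) (ι → ZMod 2)) : perp (perp L) = L := by
  symm
  apply Submodule.eq_of_le_of_finrank_eq
  · intro u hu x hx
    rw [dotProduct_comm]
    exact hx u hu
  · rw [finrank_perp, finrank_perp]
    have := finrank_le_card L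
    omega

/-- separation: a vector outside a subspace is detected by a vector of the orthogonal. -/
theorem exists_of_not_mem {L : Submodule (ZMod 2) (ι → ZMod 2)} {d : ι → ZMod 2} (hd : d ∉ L) :
    ∃ u ∈ perp L, u ⬝ᵥ d ≠ 0 := by
  by_contra h
  push Not at h
  apply hd
  rw [← perp_perp L]
  intro u hu
  exact h u hu

/-- size of a subspace, as a number of points -/
noncomputable def cardS (L : Submodule (ZMod 2) (ι → ZMod 2)) : ℕ := by
  classical exact (univ.filter (fun x => x ∈ L)).card

theorem cardS_eq (L : Submodule (ZMod 2) (ι → ZMod 2)) :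
    cardS L = 2 ^ finrank (ZMod 2) L := by
  classical
  have h1 : cardS L = Fintype.card L := by
    unfold cardS
    rw [Fintype.card_subtype]
  rw [h1, card_eq_pow_finrank (K := ZMod 2) (V := L)]
  simp

theorem cardS_mul_cardS_perp (L : Submodule (ZMod 2) (ι → ZMod 2)) :
    cardS L * cardS (perp L) = 2 ^ Fintype.card ι := by
  rw [cardS_eq, cardS_eq, finrank_perp, ← pow_add]
  congr 1
  have := finrank_le_card L
  omega


/-! ### Elementary facts in characteristic two -/

theorem z2_add_self (a : ZMod 2) : a + a = 0 := by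
  revert a; decide

theorem z2_ne_zero {a : ZMod 2} (h : a ≠ 0) : a = 1 := by
  revert a; decide

theorem z2_ne_one {a : ZMod 2} (h : a ≠ 1) : a = 0 := by
  revert a; decide

theorem fun_add_self (x : ι → ZMod 2) : x + x = 0 := by
  funext i
  simp [z2_add_self]

theorem z2_add_eq_zero {a b : ZMod 2} (h : a + b = 0) : a = b := by
  revert a b; decide

theorem z2_eq_of_ne {a b : ZMod 2} (h : a + b ≠ 0) : a ≠ b := by
  intro hab
  apply h
  rw [hab, z2_add_self]

/-- Hamming weight. -/
def wt (u : ι → ZMod 2) : ℕ := (univ.filter (fun i => u i ≠ 0)).card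

theorem wt_add_le (u v : ι → ZMod 2) : wt (u + v) ≤ wt u + wt v := by
  unfold wt
  refine le_trans (card_le_card ?_) (card_union_le _ _)
  intro i hi
  simp only [mem_filter, mem_univ, true_and, Pi.add_apply, mem_union] at hi ⊢
  by_contra h
  push Not at h
  apply hi
  rw [h.1, h.2, add_zero]

theorem wt_sum_le (J : Finset (ι → ZMod 2)) (K : ℕ) (h : ∀ v ∈ J, wt v ≤ K) :
    wt (∑ v ∈ J, v) ≤ J.card * K := by
  classical
  induction J using Finset.induction_on with
  | empty => simp [wt]
  | insert a s ha ih =>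
    rw [sum_insert ha, card_insert_of_notMem ha]
    have h1 := wt_add_le a (∑ v ∈ s, v)
    have h2 := h a (mem_insert_self a s)
    have h3 := ih (fun v hv => h v (mem_insert_of_mem hv))
    nlinarith

theorem wt_le_of_support {u : ι → ZMod 2} {I : Finset ι} (h : ∀ i, i ∉ I → u i = 0) :
    wt u ≤ I.card := by
  apply card_le_card
  intro i hi
  by_contra hI
  simp only [mem_filter, mem_univ, true_and] at hi
  exact hi (h i hI)

/-! ### The linear forms constant on a set -/

/-- The linear forms that are constant on the set `A`. -/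
def Ann (A : Set (ι → ZMod 2)) : Submodule (ZMod 2) (ι → ZMod 2) where
  carrier := {u | ∀ x ∈ A, ∀ y ∈ A, u ⬝ᵥ x = u ⬝ᵥ y}
  add_mem' := by
    intro a b ha hb x hx y hy
    simp only [add_dotProduct]
    rw [ha x hx y hy, hb x hx y hy]
  zero_mem' := by
    intro x _ y _
    simp
  smul_mem' := by
    intro c u hu x hx y hy
    simp only [smul_dotProduct]
    rw [hu x hx y hy]

theorem mem_Ann {A : Set (ι → ZMod 2)} {u : ι → ZMod 2} :
    u ∈ Ann A ↔ ∀ x ∈ A, ∀ y ∈ A, u ⬝ᵥ x = u ⬝ᵥ y := Iff.rfl

/-- The vectors vanishing on a set of coordinates. -/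
def vanish (T : Finset ι) : Submodule (ZMod 2) (ι → ZMod 2) where
  carrier := {d | ∀ i ∈ T, d i = 0}
  add_mem' := by
    intro a b ha hb i hi
    simp [ha i hi, hb i hi]
  zero_mem' := by
    intro i _
    rfl
  smul_mem' := by
    intro c d hd i hi
    simp [hd i hi]

theorem mem_vanish {T : Finset ι} {d : ι → ZMod 2} : d ∈ vanish T ↔ ∀ i ∈ T, d i = 0 := Iff.rfl

/-- A vector orthogonal to all vectors vanishing on `T` is supported in `T`. -/
theorem support_of_perp_vanish {T : Finset ι} {u : ι → ZMod 2} (hu : u ∈ perp (vanish T))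
    (i : ι) (hi : i ∉ T) : u i = 0 := by
  have h1 : (Pi.single i 1 : ι → ZMod 2) ∈ vanish T := by
    intro j hj
    have : j ≠ i := by
      rintro rfl
      exact hi hj
    simp [this]
  have h2 := hu (Pi.single i 1 : ι → ZMod 2) h1
  rw [dotProduct_comm] at h2
  simpa using h2

/-- The direction of an affine set. -/
def dir (A : Set (ι → ZMod 2)) (x0 : ι → ZMod 2) (h0 : x0 ∈ A)
    (haff : ∀ x ∈ A, ∀ y ∈ A, ∀ z ∈ A, x + y + z ∈ A) : Submodule (ZMod 2) (ι → ZMod 2) where
  carrier := {d | x0 + d ∈ A}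
  add_mem' := by
    intro a b ha hb
    have h := haff _ ha _ hb _ h0
    have e : x0 + a + (x0 + b) + x0 = x0 + (a + b) := by
      funext i
      simp only [Pi.add_apply]
      have := z2_add_self (x0 i)
      linear_combination this
    simpa only [Set.mem_ofPred_eq, e] using h
  zero_mem' := by
    simpa using h0
  smul_mem' := by
    intro c d hd
    have hc : c = 0 ∨ c = 1 := by revert c; decide
    rcases hc with rfl | rfl
    · simpa using h0
    · simpa using hd

theorem mem_dir {A : Set (ι → ZMod 2)} {x0 : ι → ZMod 2} {h0 : x0 ∈ A}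
    {haff : ∀ x ∈ A, ∀ y ∈ A, ∀ z ∈ A, x + y + z ∈ A} {d : ι → ZMod 2} :
    d ∈ dir A x0 h0 haff ↔ x0 + d ∈ A := Iff.rfl

theorem mem_Ann_of_perp_dir {A : Set (ι → ZMod 2)} {x0 : ι → ZMod 2} {h0 : x0 ∈ A}
    {haff : ∀ x ∈ A, ∀ y ∈ A, ∀ z ∈ A, x + y + z ∈ A} {u : ι → ZMod 2}
    (hu : u ∈ perp (dir A x0 h0 haff)) : u ∈ Ann A := by
  have key : ∀ x ∈ A, u ⬝ᵥ x = u ⬝ᵥ x0 := by
    intro x hx
    have h1 : x0 + x ∈ dir A x0 h0 haff := by
      rw [mem_dir]
      have : x0 + (x0 + x) = x := by
        funext i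
        simp only [Pi.add_apply]
        have := z2_add_self (x0 i)
        linear_combination this
      rwa [this]
    have h2 := hu _ h1
    rw [add_dotProduct] at h2
    rw [dotProduct_comm u x, dotProduct_comm u x0]
    exact (z2_add_eq_zero h2).symm
  intro x hx y hy
  rw [key x hx, key y hy]

/-- If no point of the affine set `A` agrees with `x` on `T`, a linear form constant on `A`,
supported in `T`, separates `x` from `A`. -/
theorem exists_sep {A : Set (ι → ZMod 2)} {x0 : ι → ZMod 2} (h0 : x0 ∈ A)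
    (haff : ∀ x ∈ A, ∀ y ∈ A, ∀ z ∈ A, x + y + z ∈ A) {T : Finset ι} {x : ι → ZMod 2}
    (hx : ∀ z ∈ A, ∃ i ∈ T, z i ≠ x i) :
    ∃ u ∈ Ann A, (∀ i, i ∉ T → u i = 0) ∧ u ⬝ᵥ x ≠ u ⬝ᵥ x0 := by
  set W := dir A x0 h0 haff ⊔ vanish T with hW
  have hd : x0 + x ∉ W := by
    intro hmem
    obtain ⟨w, hw, z, hz, hwz⟩ := Submodule.mem_sup.1 hmem
    obtain ⟨i, hi, hne⟩ := hx _ (mem_dir.1 hw)
    apply hne
    have h1 : w i + z i = x0 i + x i := congrFun hwz i
    have h2 : z i = 0 := hz i hi
    rw [h2, add_zero] at h1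
    simp only [Pi.add_apply]
    rw [h1]
    have := z2_add_self (x0 i)
    linear_combination this
  obtain ⟨u, hu, hne⟩ := exists_of_not_mem hd
  refine ⟨u, ?_, ?_, ?_⟩
  · apply mem_Ann_of_perp_dir (h0 := h0) (haff := haff)
    intro v hv
    exact hu v (Submodule.mem_sup_left hv)
  · apply support_of_perp_vanish
    intro v hv
    exact hu v (Submodule.mem_sup_right hv)
  · rw [dotProduct_add] at hne
    intro h
    apply hne
    rw [h, z2_add_self]

/-! ### Maximal sets of coordinates on which a subspace has no word -/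

/-- No nonzero word of `E` is supported in `I`. -/
def Free (E : Submodule (ZMod 2) (ι → ZMod 2)) (I : Finset ι) : Prop :=
  ∀ v ∈ E, (∀ i, i ∉ I → v i = 0) → v = 0

theorem free_empty (E : Submodule (ZMod 2) (ι → ZMod 2)) : Free E ∅ := by
  intro v _ h
  funext i
  exact h i (by simp)

theorem exists_max_free (E : Submodule (ZMod 2) (ι → ZMod 2)) (T : Finset ι) :
    ∃ I ⊆ T, Free E I ∧ ∀ j ∈ T, j ∉ I → ¬ Free E (insert j I) := by
  classical
  have hne : (T.powerset.filter (Free E)).Nonempty :=
    ⟨∅, by simp [free_empty]⟩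
  obtain ⟨I, hI, hmax⟩ := exists_max_image _ Finset.card hne
  simp only [mem_filter, mem_powerset] at hI hmax
  refine ⟨I, hI.1, hI.2, ?_⟩
  intro j hj hjI hfree
  have h1 := hmax (insert j I) ⟨insert_subset hj hI.1, hfree⟩
  rw [card_insert_of_notMem hjI] at h1
  omega

/-- Elimination: a form constant on `A`, outside `E`, supported in `T`, can be moved by a word of
`E` so that it is supported in a maximal free set `I`. -/
theorem exists_support_free {A : Set (ι → ZMod 2)} {E : Submodule (ZMod 2) (ι → ZMod 2)}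
    (hE : E ≤ Ann A) {T I : Finset ι} (hIT : I ⊆ T) (hfree : Free E I)
    (hmax : ∀ j ∈ T, j ∉ I → ¬ Free E (insert j I)) :
    ∀ (n : ℕ) (w : ι → ZMod 2), w ∈ Ann A → w ∉ E → (∀ i, i ∉ T → w i = 0) →
      ((T \ I).filter (fun i => w i ≠ 0)).card = n →
      ∃ w' ∈ Ann A, w' ∉ E ∧ ∀ i, i ∉ I → w' i = 0 := by
  classical
  intro n
  induction n with
  | zero =>
    intro w hw hwE hT hc
    refine ⟨w, hw, hwE, ?_⟩
    intro i hi
    by_cases hiT : i ∈ T
    · by_contra hne
      have : i ∈ (T \ I).filter (fun i => w i ≠ 0) := by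
        simp [hiT, hi, hne]
      rw [card_eq_zero] at hc
      rw [hc] at this
      simp at this
    · exact hT i hiT
  | succ n ih =>
    intro w hw hwE hT hc
    have hne : ((T \ I).filter (fun i => w i ≠ 0)).Nonempty := by
      rw [← card_pos, hc]
      omega
    obtain ⟨j, hj⟩ := hne
    simp only [mem_filter, mem_sdiff] at hj
    obtain ⟨⟨hjT, hjI⟩, hwj⟩ := hj
    have hnf := hmax j hjT hjI
    unfold Free at hnf
    push Not at hnf
    obtain ⟨v, hvE, hvs, hv0⟩ := hnf
    have hvj : v j = 1 := by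
      apply z2_ne_zero
      intro hvj0
      apply hv0
      apply hfree v hvE
      intro i hi
      by_cases hij : i = j
      · rw [hij]; exact hvj0
      · apply hvs
        simp [hij, hi]
    have hwj1 : w j = 1 := z2_ne_zero hwj
    have hvT : ∀ i, i ∉ T → v i = 0 := by
      intro i hi
      apply hvs
      intro hmem
      rcases mem_insert.1 hmem with h | h
      · rw [h] at hi; exact hi hjT
      · exact hi (hIT h)
    refine ih (w + v) (Submodule.add_mem _ hw (hE hvE)) ?_ ?_ ?_
    · intro hmem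
      apply hwE
      have := Submodule.sub_mem _ hmem hvE
      simpa using this
    · intro i hi
      simp [hT i hi, hvT i hi]
    · have hsub : (T \ I).filter (fun i => (w + v) i ≠ 0) =
          ((T \ I).filter (fun i => w i ≠ 0)).erase j := by
        ext i
        simp only [mem_filter, mem_sdiff, mem_erase, Pi.add_apply]
        constructor
        · rintro ⟨⟨hiT, hiI⟩, hne⟩
          by_cases hij : i = j
          · exfalso
            apply hne
            rw [hij, hwj1, hvj]
            decide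
          · refine ⟨hij, ⟨hiT, hiI⟩, ?_⟩
            have : v i = 0 := by
              apply hvs
              simp [hij, hiI]
            rw [this, add_zero] at hne
            exact hne
        · rintro ⟨hij, ⟨hiT, hiI⟩, hne⟩
          refine ⟨⟨hiT, hiI⟩, ?_⟩
          have : v i = 0 := by
            apply hvs
            simp [hij, hiI]
          rw [this, add_zero]
          exact hne
      rw [hsub, card_erase_of_mem, hc]
      · rfl
      · simp [hjT, hjI, hwj]

/-- On a free set of coordinates, the orthogonal of `E` projects onto everything. -/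
theorem exists_lift {E : Submodule (ZMod 2) (ι → ZMod 2)} {I : Finset ι} (hfree : Free E I)
    (J : Finset ι) :
    ∃ y ∈ perp E, ∀ i ∈ I, (y i = 1 ↔ i ∈ J) := by
  classical
  set b : ι → ZMod 2 := fun i => if i ∈ J then 1 else 0 with hb
  have hmem : b ∈ perp E ⊔ vanish I := by
    by_contra hn
    obtain ⟨u, hu, hne⟩ := exists_of_not_mem hn
    have h1 : u ∈ E := by
      rw [← perp_perp E]
      intro v hv
      exact hu v (Submodule.mem_sup_left hv)
    have h2 : ∀ i, i ∉ I → u i = 0 := by
      apply support_of_perp_vanish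
      intro v hv
      exact hu v (Submodule.mem_sup_right hv)
    have h3 := hfree u h1 h2
    apply hne
    rw [h3]
    simp
  obtain ⟨y, hy, z, hz, hyz⟩ := Submodule.mem_sup.1 hmem
  refine ⟨y, hy, ?_⟩
  intro i hi
  have h1 : y i + z i = b i := congrFun hyz i
  rw [hz i hi, add_zero] at h1
  rw [h1, hb]
  by_cases hiJ : i ∈ J <;> simp [hiJ]

/-- The points agreeing with `x0` on all forms of `E`. -/
noncomputable def hull (E : Submodule (ZMod 2) (ι → ZMod 2)) (x0 : ι → ZMod 2) :
    Finset (ι → ZMod 2) := by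
  classical exact univ.filter (fun x => ∀ v ∈ E, v ⬝ᵥ x = v ⬝ᵥ x0)

theorem mem_hull {E : Submodule (ZMod 2) (ι → ZMod 2)} {x0 x : ι → ZMod 2} :
    x ∈ hull E x0 ↔ ∀ v ∈ E, v ⬝ᵥ x = v ⬝ᵥ x0 := by
  classical
  simp [hull]

/-- A subset of the hull whose points all agree on a free set `I` has density at most
`2 ^ (- |I|)` in the hull. -/
theorem card_agree_mul_le {E : Submodule (ZMod 2) (ι → ZMod 2)} {x0 x : ι → ZMod 2} {I : Finset ι}
    (hfree : Free E I) (S : Finset (ι → ZMod 2)) (hS : S ⊆ hull E x0)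
    (hag : ∀ y ∈ S, ∀ i ∈ I, y i = x i) :
    S.card * 2 ^ I.card ≤ (hull E x0).card := by
  classical
  choose! Y hYp hY using fun J : Finset ι => exists_lift hfree J
  have hcard : (S ×ˢ I.powerset).card = S.card * 2 ^ I.card := by
    rw [card_product, card_powerset]
  rw [← hcard]
  apply card_le_card_of_injOn (fun q => q.1 + Y q.2)
  · intro q hq
    simp only [coe_product, Set.mem_prod, mem_coe, mem_powerset] at hq
    have h1 := mem_hull.1 (hS hq.1)
    simp only [mem_coe, mem_hull]
    intro v hv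
    rw [dotProduct_add, h1 v hv, hYp q.2 v hv, add_zero]
  · rintro ⟨y, J⟩ hq ⟨y', J'⟩ hq' heq
    simp only [coe_product, Set.mem_prod, mem_coe, mem_powerset] at hq hq'
    simp only at heq
    have hJ : J = J' := by
      ext i
      by_cases hi : i ∈ I
      · have h1 : y i + Y J i = y' i + Y J' i := congrFun heq i
        rw [hag y hq.1 i hi, hag y' hq'.1 i hi] at h1
        have h2 : Y J i = Y J' i := add_left_cancel h1
        rw [← hY J i hi, ← hY J' i hi, h2]
      · constructor
        · intro h; exact absurd (hq.2 h) hi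
        · intro h; exact absurd (hq'.2 h) hi
    subst hJ
    have hy : y = y' := add_right_cancel heq
    rw [hy]


/-! ### Clauses -/

/-- The variable read by an input of a bottom gate. -/
def Lit.vars : Lit ι → Finset ι
  | Lit.pos i => {i}
  | Lit.neg i => {i}
  | Lit.const _ => ∅

/-- The variables read by a bottom gate. -/
def varsOf (c : OrGate ι) : Finset ι := c.biUnion Lit.vars

theorem falsified_agree {c : OrGate ι} {x y : ι → ZMod 2} (hx : ¬ OrGate.val c x)
    (hy : ¬ OrGate.val c y) : ∀ i ∈ varsOf c, y i = x i := by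
  intro i hi
  obtain ⟨l, hl, hil⟩ := mem_biUnion.1 hi
  have hxl : ¬ l.val x := fun h => hx ⟨l, hl, h⟩
  have hyl : ¬ l.val y := fun h => hy ⟨l, hl, h⟩
  cases l with
  | pos j =>
    have hij : i = j := by simpa [Lit.vars] using hil
    subst hij
    simp only [Lit.val] at hxl hyl
    rw [z2_ne_one hxl, z2_ne_one hyl]
  | neg j =>
    have hij : i = j := by simpa [Lit.vars] using hil
    subst hij
    simp only [Lit.val] at hxl hyl
    have h1 : x i = 1 := z2_ne_zero hxl
    have h2 : y i = 1 := z2_ne_zero hyl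
    rw [h1, h2]
  | const b =>
    simp [Lit.vars] at hil

theorem falsified_transfer {c : OrGate ι} {x z : ι → ZMod 2} (hx : ¬ OrGate.val c x)
    (hz : ∀ i ∈ varsOf c, z i = x i) : ¬ OrGate.val c z := by
  rintro ⟨l, hl, hlz⟩
  apply hx
  refine ⟨l, hl, ?_⟩
  cases l with
  | pos j =>
    have hj : j ∈ varsOf c := mem_biUnion.2 ⟨_, hl, by simp [Lit.vars]⟩
    simp only [Lit.val] at hlz ⊢
    rw [← hz j hj]; exact hlz
  | neg j =>
    have hj : j ∈ varsOf c := mem_biUnion.2 ⟨_, hl, by simp [Lit.vars]⟩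
    simp only [Lit.val] at hlz ⊢
    rw [← hz j hj]; exact hlz
  | const b =>
    exact hlz

open Classical in
/-- The main density estimate: a bottom gate true on the affine set `A` but false somewhere on
the hull of the light forms falsifies few points of that hull. -/
theorem card_falsified_mul_le {A : Set (ι → ZMod 2)} {x0 : ι → ZMod 2} (h0 : x0 ∈ A)
    (haff : ∀ x ∈ A, ∀ y ∈ A, ∀ z ∈ A, x + y + z ∈ A)
    {E : Submodule (ZMod 2) (ι → ZMod 2)} (hE : E ≤ Ann A) {w : ℕ}
    (hw : ∀ u ∈ Ann A, u ∉ E → w ≤ wt u) (c : OrGate ι) (hcA : ∀ z ∈ A, OrGate.val c z) :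
    ((hull E x0).filter (fun y => ¬ OrGate.val c y)).card * 2 ^ w ≤ (hull E x0).card := by
  classical
  by_cases hne : ((hull E x0).filter (fun y => ¬ OrGate.val c y)).Nonempty
  · obtain ⟨x, hx⟩ := hne
    simp only [mem_filter] at hx
    obtain ⟨hxh, hxc⟩ := hx
    have hsep : ∀ z ∈ A, ∃ i ∈ varsOf c, z i ≠ x i := by
      intro z hz
      by_contra hcon
      push Not at hcon
      exact falsified_transfer hxc hcon (hcA z hz)
    obtain ⟨u, huA, hut, hne⟩ := exists_sep h0 haff hsep
    have huE : u ∉ E := by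
      intro hmem
      exact hne (mem_hull.1 hxh u hmem)
    obtain ⟨I, hIT, hfree, hmax⟩ := exists_max_free E (varsOf c)
    obtain ⟨w', hw'A, hw'E, hw's⟩ := exists_support_free hE hIT hfree hmax _ u huA huE hut rfl
    have hwI : w ≤ I.card := le_trans (hw _ hw'A hw'E) (wt_le_of_support hw's)
    have hS := card_agree_mul_le (x0 := x0) (x := x) hfree
      ((hull E x0).filter (fun y => ¬ OrGate.val c y)) (filter_subset _ _) (by
        intro y hy i hi
        simp only [mem_filter] at hy
        exact falsified_agree hxc hy.2 i (hIT hi))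
    calc _ ≤ ((hull E x0).filter (fun y => ¬ OrGate.val c y)).card * 2 ^ I.card :=
          Nat.mul_le_mul_left _ (Nat.pow_le_pow_right (by norm_num) hwI)
      _ ≤ _ := hS
  · rw [not_nonempty_iff_eq_empty] at hne
    rw [hne]
    simp

/-- If the accepted set of an AND gate with fewer than `2 ^ K` inputs is affine, its constant
linear forms are spanned by those of weight at most `K`. -/
theorem Ann_le_span_light (G : AndGate ι) {K : ℕ} (hG : G.card < 2 ^ K)
    {x0 : ι → ZMod 2} (h0 : AndGate.val G x0)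
    (haff : ∀ x y z : ι → ZMod 2,
      AndGate.val G x → AndGate.val G y → AndGate.val G z → AndGate.val G (x + y + z)) :
    Ann {x | AndGate.val G x} ≤
      Submodule.span (ZMod 2) {u | u ∈ Ann {x | AndGate.val G x} ∧ wt u ≤ K} := by
  classical
  set A : Set (ι → ZMod 2) := {x | AndGate.val G x} with hA
  set E := Submodule.span (ZMod 2) {u | u ∈ Ann A ∧ wt u ≤ K} with hEdef
  have hE : E ≤ Ann A := by
    apply Submodule.span_le.2
    intro u hu
    exact hu.1
  intro u0 hu0
  by_contra hu0E
  have hnonempty : (univ.filter (fun u => u ∈ Ann A ∧ u ∉ E)).Nonempty :=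
    ⟨u0, by simp [hu0, hu0E]⟩
  obtain ⟨u, hu, hmin⟩ := exists_min_image _ wt hnonempty
  simp only [mem_filter, mem_univ, true_and] at hu hmin
  obtain ⟨huA, huE⟩ := hu
  have hwK : K + 1 ≤ wt u := by
    by_contra hlt
    apply huE
    apply Submodule.subset_span
    exact ⟨huA, by omega⟩
  have hw : ∀ v ∈ Ann A, v ∉ E → wt u ≤ wt v := fun v hv hvE => hmin v ⟨hv, hvE⟩
  -- the two halves of the hull
  obtain ⟨y, hyp, hyne⟩ := exists_of_not_mem huE
  have hy1 : u ⬝ᵥ y = 1 := by
    rw [dotProduct_comm]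
    exact z2_ne_zero hyne
  set H := hull E x0 with hH
  set B1 := H.filter (fun x => u ⬝ᵥ x ≠ u ⬝ᵥ x0) with hB1
  have hhalf : H.card ≤ 2 * B1.card := by
    have hsplit : B1.card + (H.filter (fun x => ¬ (u ⬝ᵥ x ≠ u ⬝ᵥ x0))).card = H.card :=
      card_filter_add_card_filter_not (s := H) _
    have hB0 : (H.filter (fun x => ¬ (u ⬝ᵥ x ≠ u ⬝ᵥ x0))).card ≤ B1.card := by
      apply card_le_card_of_injOn (fun x => x + y)
      · intro x hx
        simp only [coe_filter, Set.mem_ofPred_eq, not_not] at hx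
        simp only [hB1, mem_coe, mem_filter]
        constructor
        · rw [hH, mem_hull]
          intro v hv
          rw [dotProduct_add, mem_hull.1 hx.1 v hv, hyp v hv, add_zero]
        · rw [dotProduct_add, hx.2, hy1]
          generalize u ⬝ᵥ x0 = a
          revert a
          decide
      · intro a _ b _ hab
        exact add_right_cancel hab
    omega
  have hx0H : x0 ∈ H := by
    rw [hH, mem_hull]
    intro v _
    rfl
  have hBpos : 0 < B1.card := by
    have : 0 < H.card := card_pos.2 ⟨x0, hx0H⟩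
    omega
  -- every point of the upper half falsifies some gate
  have hcover : B1 ⊆ G.biUnion (fun c => H.filter (fun y => ¬ OrGate.val c y)) := by
    intro x hx
    simp only [hB1, mem_filter] at hx
    have hnot : ¬ AndGate.val G x := by
      intro hGx
      exact hx.2 (huA x hGx x0 h0)
    unfold AndGate.val at hnot
    push Not at hnot
    obtain ⟨c, hc, hcx⟩ := hnot
    simp only [mem_biUnion, mem_filter]
    exact ⟨c, hc, hx.1, hcx⟩
  have hcount : B1.card * 2 ^ wt u ≤ G.card * H.card := by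
    calc B1.card * 2 ^ wt u
        ≤ (G.biUnion (fun c => H.filter (fun y => ¬ OrGate.val c y))).card * 2 ^ wt u :=
          Nat.mul_le_mul_right _ (card_le_card hcover)
      _ ≤ (∑ c ∈ G, (H.filter (fun y => ¬ OrGate.val c y)).card) * 2 ^ wt u :=
          Nat.mul_le_mul_right _ card_biUnion_le
      _ = ∑ c ∈ G, (H.filter (fun y => ¬ OrGate.val c y)).card * 2 ^ wt u := by
          rw [sum_mul]
      _ ≤ ∑ c ∈ G, H.card := by
          apply sum_le_sum
          intro c hc
          exact card_falsified_mul_le (A := A) h0 (fun x hx y hy z hz => haff x y z hx hy hz)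
            hE hw c (fun z hz => hz c hc)
      _ = G.card * H.card := by simp
  have hfinal : 2 ^ wt u ≤ 2 * G.card := by
    have h1 : B1.card * 2 ^ wt u ≤ B1.card * (2 * G.card) := by
      calc B1.card * 2 ^ wt u ≤ G.card * H.card := hcount
        _ ≤ G.card * (2 * B1.card) := Nat.mul_le_mul_left _ hhalf
        _ = B1.card * (2 * G.card) := by ring
    exact Nat.le_of_mul_le_mul_left h1 hBpos
  have h2 : 2 ^ (K + 1) ≤ 2 ^ wt u := Nat.pow_le_pow_right (by norm_num) hwK
  rw [pow_succ] at h2
  omega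

/-- The counting step: sums of `ℓ` independent light forms lie in different cosets of `D`. -/
theorem choose_mul_card_le {B D : Submodule (ZMod 2) (ι → ZMod 2)} (hDB : D ≤ B) {Δ K ℓ : ℕ}
    (hdist : ∀ u ∈ D, u ≠ 0 → Δ ≤ wt u) (hl : 2 * ℓ * K < Δ)
    (hspan : B ≤ Submodule.span (ZMod 2) {u | u ∈ B ∧ wt u ≤ K}) :
    (finrank (ZMod 2) D).choose ℓ * cardS D ≤ cardS B := by
  classical
  obtain ⟨b, hbsub, hbspan, hbind⟩ := exists_linearIndependent (ZMod 2) {u | u ∈ B ∧ wt u ≤ K}
  have hspanb : Submodule.span (ZMod 2) b = B := by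
    apply le_antisymm
    · apply Submodule.span_le.2
      intro u hu
      exact (hbsub hu).1
    · rw [hbspan]; exact hspan
  have : Fintype b := Fintype.ofFinite b
  have hfr : finrank (ZMod 2) B = b.toFinset.card := by
    rw [← hspanb]
    exact finrank_span_set_eq_card hbind
  set Bs := b.toFinset with hBs
  have hmemBs : ∀ v, v ∈ Bs ↔ v ∈ b := by
    intro v
    simp [hBs]
  have hrank : finrank (ZMod 2) D ≤ Bs.card := by
    rw [← hfr]
    exact Submodule.finrank_mono hDB
  have hindep : ∀ f : (ι → ZMod 2) → ZMod 2, ∑ v ∈ Bs, f v • v = 0 → ∀ v ∈ Bs, f v = 0 := by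
    have h1 : LinearIndepOn (ZMod 2) id ((Bs : Finset _) : Set (ι → ZMod 2)) := by
      have : ((Bs : Finset _) : Set (ι → ZMod 2)) = b := by
        ext v; simp [hBs]
      rw [this]
      exact hbind
    intro f hf v hv
    exact linearIndepOn_finset_iff.1 h1 f hf v hv
  have hcard1 : (Bs.powersetCard ℓ).card = Bs.card.choose ℓ := card_powersetCard _ _
  have hle : (finrank (ZMod 2) D).choose ℓ ≤ (Bs.powersetCard ℓ).card := by
    rw [hcard1]
    exact Nat.choose_le_choose _ hrank
  have hinj : (Bs.powersetCard ℓ).card * cardS D ≤ cardS B := by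
    unfold cardS
    rw [← card_product]
    apply card_le_card_of_injOn (fun q => (∑ v ∈ q.1, v) + q.2)
    · rintro ⟨J, d⟩ hq
      simp only [coe_product, Set.mem_prod, mem_coe, mem_powersetCard, coe_filter,
        mem_univ, true_and, Set.mem_ofPred_eq] at hq
      simp only [coe_filter, mem_univ, true_and, Set.mem_ofPred_eq]
      apply Submodule.add_mem _ _ (hDB hq.2)
      apply Submodule.sum_mem
      intro v hv
      have := (hmemBs v).1 (hq.1.1 hv)
      exact (hbsub this).1
    · rintro ⟨J, d⟩ hq ⟨J', d'⟩ hq' heq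
      simp only [coe_product, Set.mem_prod, mem_coe, mem_powersetCard, coe_filter,
        mem_univ, true_and, Set.mem_ofPred_eq] at hq hq'
      simp only at heq
      have hsumwt : ∀ (J : Finset (ι → ZMod 2)), J ⊆ Bs → J.card = ℓ → wt (∑ v ∈ J, v) ≤ ℓ * K := by
        intro J hJ hc
        have := wt_sum_le J K (fun v hv => (hbsub ((hmemBs v).1 (hJ hv))).2)
        rwa [hc] at this
      have he1 : (∑ v ∈ J, v) + (∑ v ∈ J', v) = d + d' := by
        funext i
        have h := congrFun heq i
        simp only [Pi.add_apply] at h ⊢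
        have h1 := z2_add_self ((∑ v ∈ J', v) i)
        have h3 := z2_add_self (d i)
        linear_combination h + h1 - h3
      have hdD : d + d' ∈ D := Submodule.add_mem _ hq.2 hq'.2
      have hzero : d + d' = 0 := by
        by_contra hne
        have h1 := hdist _ hdD hne
        rw [← he1] at h1
        have h2 := wt_add_le (∑ v ∈ J, v) (∑ v ∈ J', v)
        have h3 := hsumwt J hq.1.1 hq.1.2
        have h4 := hsumwt J' hq'.1.1 hq'.1.2
        have h5 : 2 * ℓ * K = ℓ * K + ℓ * K := by ring
        omega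
      have hJJ : J = J' := by
        rw [hzero] at he1
        have hf := hindep (fun v => (if v ∈ J then 1 else 0) + (if v ∈ J' then 1 else 0)) (by
          have h1 : ∑ v ∈ Bs, (((if v ∈ J then 1 else 0) + (if v ∈ J' then 1 else 0) : ZMod 2) • v)
              = (∑ v ∈ J, v) + (∑ v ∈ J', v) := by
            simp only [add_smul, sum_add_distrib, ite_smul, one_smul, zero_smul]
            rw [sum_ite_mem, sum_ite_mem, inter_eq_right.2 hq.1.1, inter_eq_right.2 hq'.1.1]
          rw [h1, he1])
        ext v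
        by_cases hvB : v ∈ Bs
        · have := hf v hvB
          by_cases h1 : v ∈ J <;> by_cases h2 : v ∈ J' <;> simp [h1, h2] at this ⊢
        · constructor
          · intro h; exact absurd (hq.1.1 h) hvB
          · intro h; exact absurd (hq'.1.1 h) hvB
      subst hJJ
      have hdd : d = d' := add_left_cancel heq
      rw [hdd]
  exact le_trans (Nat.mul_le_mul_right _ hle) hinj

/-- The general theorem for a code given by its dual. -/
theorem choose_le_middle (D : Submodule (ZMod 2) (ι → ZMod 2)) {Δ K ℓ : ℕ}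
    (hdist : ∀ u ∈ D, u ≠ 0 → Δ ≤ wt u) (hl : 2 * ℓ * K < Δ)
    (C : Circuit ι) (hC : ∀ x, C.val x ↔ x ∈ perp D) (haff : C.AffineAnds)
    (hb : C.bottom.card < 2 ^ K) :
    (finrank (ZMod 2) D).choose ℓ ≤ C.middle.card := by
  classical
  set N := (finrank (ZMod 2) D).choose ℓ with hN
  have hpos : ∀ L : Submodule (ZMod 2) (ι → ZMod 2), 0 < cardS L := by
    intro L
    rw [cardS_eq]
    positivity
  have hgate : ∀ G ∈ C.middle,
      N * (univ.filter (fun x => AndGate.val G x)).card ≤ cardS (perp D) := by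
    intro G hG
    by_cases hne : (univ.filter (fun x => AndGate.val G x)).Nonempty
    · obtain ⟨x0, hx0⟩ := hne
      simp only [mem_filter, mem_univ, true_and] at hx0
      set A : Set (ι → ZMod 2) := {x | AndGate.val G x} with hA
      have hin : ∀ x ∈ A, x ∈ perp D := by
        intro x hx
        exact (hC x).1 ⟨G, hG, hx⟩
      have hDA : D ≤ Ann A := by
        intro u hu x hx y hy
        rw [hin x hx u hu, hin y hy u hu]
      have hGcard : G.card < 2 ^ K := by
        refine lt_of_le_of_lt (card_le_card ?_) hb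
        intro c hc
        exact mem_biUnion.2 ⟨G, hG, hc⟩
      have hspan := Ann_le_span_light G hGcard hx0 (haff G hG)
      have hcount := choose_mul_card_le hDA hdist hl hspan
      have hsmall : (univ.filter (fun x => AndGate.val G x)).card ≤ cardS (perp (Ann A)) := by
        unfold cardS
        apply card_le_card_of_injOn (fun x => x0 + x)
        · intro x hx
          simp only [coe_filter, mem_univ, true_and, Set.mem_ofPred_eq] at hx ⊢
          intro u hu
          rw [dotProduct_add, hu x hx x0 hx0, z2_add_self]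
        · intro a _ b _ hab
          exact add_left_cancel hab
      have h1 := cardS_mul_cardS_perp (Ann A)
      have h2 := cardS_mul_cardS_perp D
      apply Nat.le_of_mul_le_mul_left _ (hpos D)
      calc cardS D * (N * (univ.filter (fun x => AndGate.val G x)).card)
          = (N * cardS D) * (univ.filter (fun x => AndGate.val G x)).card := by ring
        _ ≤ cardS (Ann A) * cardS (perp (Ann A)) := Nat.mul_le_mul hcount hsmall
        _ = cardS D * cardS (perp D) := by rw [h1, h2]
    · rw [not_nonempty_iff_eq_empty] at hne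
      rw [hne]
      simp
  have hcover : cardS (perp D) ≤ ∑ G ∈ C.middle, (univ.filter (fun x => AndGate.val G x)).card := by
    unfold cardS
    refine le_trans (card_le_card ?_) card_biUnion_le
    intro x hx
    simp only [mem_filter, mem_univ, true_and] at hx
    obtain ⟨G, hG, hGx⟩ := (hC x).2 hx
    exact mem_biUnion.2 ⟨G, hG, by simp [hGx]⟩
  apply Nat.le_of_mul_le_mul_right _ (hpos (perp D))
  calc N * cardS (perp D)
      ≤ N * ∑ G ∈ C.middle, (univ.filter (fun x => AndGate.val G x)).card :=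
        Nat.mul_le_mul_left _ hcover
    _ = ∑ G ∈ C.middle, N * (univ.filter (fun x => AndGate.val G x)).card := by
        rw [mul_sum]
    _ ≤ ∑ G ∈ C.middle, cardS (perp D) := sum_le_sum hgate
    _ = C.middle.card * cardS (perp D) := by simp

open Polynomial in
/-- A nonzero polynomial of degree less than `κ` has at least `q - κ` non-roots. -/
theorem univariate_nonroots {F : Type} [Field F] [Fintype F] [DecidableEq F] {κ : ℕ}
    (a : Fin κ → F) (ha : a ≠ 0) :
    Fintype.card F - κ ≤ (univ.filter (fun t : F => ∑ i, a i * t ^ (i : ℕ) ≠ 0)).card := by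
  classical
  set p : F[X] := ∑ i : Fin κ, C (a i) * X ^ (i : ℕ) with hp
  have hdeg : p.degree < κ := by
    apply degree_sum_fin_lt
  have hne : p ≠ 0 := by
    intro h0
    apply ha
    funext i
    have h1 : p.coeff i = a i := by
      rw [hp, finsetSum_coeff]
      simp only [coeff_C_mul, coeff_X_pow]
      rw [Finset.sum_eq_single i]
      · simp
      · intro j _ hj
        have : (i : ℕ) ≠ j := fun h => hj (Fin.ext h.symm)
        simp [this]
      · simp
    rw [← h1, h0]
    simp
  have heval : ∀ t : F, p.eval t = ∑ i : Fin κ, a i * t ^ (i : ℕ) := by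
    intro t
    simp [hp, eval_finsetSum]
  have hroots : (univ.filter (fun t : F => ∑ i, a i * t ^ (i : ℕ) = 0)).card ≤ p.natDegree := by
    apply card_le_degree_of_subset_roots
    intro t ht
    have : ∑ i, a i * t ^ (i : ℕ) = 0 := by simpa using ht
    rw [mem_roots hne, IsRoot.def, heval]
    exact this
  have hnat : p.natDegree < κ ∨ κ = 0 := by
    by_cases hκ : κ = 0
    · right; exact hκ
    · left
      exact (natDegree_lt_iff_degree_lt hne).2 hdeg
  have hsplit : (univ.filter (fun t : F => ∑ i, a i * t ^ (i : ℕ) ≠ 0)).card +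
      (univ.filter (fun t : F => ¬ (∑ i, a i * t ^ (i : ℕ) ≠ 0))).card = Fintype.card F := by
    have := card_filter_add_card_filter_not (s := (univ : Finset F))
      (fun t : F => ∑ i, a i * t ^ (i : ℕ) ≠ 0)
    simpa using this
  have hnot : (univ.filter (fun t : F => ¬ (∑ i, a i * t ^ (i : ℕ) ≠ 0))).card ≤ κ := by
    have e : (univ.filter (fun t : F => ¬ (∑ i, a i * t ^ (i : ℕ) ≠ 0))) =
        (univ.filter (fun t : F => ∑ i, a i * t ^ (i : ℕ) = 0)) := by
      ext t; simp
    rw [e]
    rcases hnat with h | h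
    · omega
    · subst h
      exact absurd (Subsingleton.elim a 0) ha
  omega

/-- The bivariate polynomial with coefficient array `c`. -/
def evalP {F : Type} [Field F] [Fintype F] {κ : ℕ} (c : Fin κ → Fin κ → F) (u v : F) : F :=
  ∑ i, ∑ j, c i j * u ^ (i : ℕ) * v ^ (j : ℕ)

/-- A nonzero bivariate polynomial with individual degrees below `κ` has many non-roots. -/
theorem bivariate_nonroots {F : Type} [Field F] [Fintype F] [DecidableEq F] {κ : ℕ}
    (c : Fin κ → Fin κ → F) (hc : c ≠ 0) :
    (Fintype.card F - κ) ^ 2 ≤ (univ.filter (fun p : F × F => evalP c p.1 p.2 ≠ 0)).card := by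
  classical
  have : ∃ i0 j0, c i0 j0 ≠ 0 := by
    by_contra h
    push Not at h
    apply hc
    funext i j
    exact h i j
  obtain ⟨i0, j0, hij⟩ := this
  set Qv : Fin κ → F → F := fun i v => ∑ j, c i j * v ^ (j : ℕ) with hQ
  have hE : ∀ u v, evalP c u v = ∑ i, Qv i v * u ^ (i : ℕ) := by
    intro u v
    simp only [evalP, hQ, sum_mul]
    apply sum_congr rfl
    intro i _
    apply sum_congr rfl
    intro j _
    ring
  set V0 := univ.filter (fun v : F => Qv i0 v ≠ 0) with hV0
  have hV0card : Fintype.card F - κ ≤ V0.card := by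
    have := univariate_nonroots (c i0) (by
      intro h
      apply hij
      rw [h]
      rfl)
    exact this
  set U : F → Finset F := fun v => univ.filter (fun u : F => ∑ i, Qv i v * u ^ (i : ℕ) ≠ 0) with hU
  have hUcard : ∀ v ∈ V0, Fintype.card F - κ ≤ (U v).card := by
    intro v hv
    have hv' : Qv i0 v ≠ 0 := (mem_filter.1 hv).2
    apply univariate_nonroots (fun i => Qv i v)
    intro h
    apply hv'
    exact congrFun h i0
  have hsum : (V0.sigma U).card = ∑ v ∈ V0, (U v).card := card_sigma _ _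
  have hlow : (Fintype.card F - κ) ^ 2 ≤ (V0.sigma U).card := by
    rw [hsum, pow_two]
    calc (Fintype.card F - κ) * (Fintype.card F - κ)
        ≤ V0.card * (Fintype.card F - κ) := Nat.mul_le_mul_right _ hV0card
      _ = ∑ v ∈ V0, (Fintype.card F - κ) := by simp
      _ ≤ ∑ v ∈ V0, (U v).card := sum_le_sum hUcard
  refine le_trans hlow ?_
  apply card_le_card_of_injOn (fun q => (q.2, q.1))
  · rintro ⟨v, u⟩ hq
    simp only [coe_sigma, Set.mem_sigma_iff, mem_coe] at hq
    simp only [coe_filter, mem_univ, true_and, Set.mem_ofPred_eq]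
    rw [hE]
    exact (mem_filter.1 hq.2).2
  · rintro ⟨v, u⟩ _ ⟨v', u'⟩ _ h
    simp only [Prod.mk.injEq] at h
    obtain ⟨h1, h2⟩ := h
    subst h1 h2
    rfl

section Code
variable {F : Type} [Field F] [Fintype F] [DecidableEq F] [Algebra (ZMod 2) F]

/-- half of the `b` are non-zero under the linear functional. -/
theorem half_card (lam : F →ₗ[ZMod 2] ZMod 2) (hlam : lam 1 ≠ 0) {y : F} (hy : y ≠ 0) :
    Fintype.card F ≤ 2 * (univ.filter (fun b : F => lam (b * y) ≠ 0)).card := by
  classical
  set B1 := univ.filter (fun b : F => lam (b * y) ≠ 0) with hB1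
  have hsplit : B1.card + (univ.filter (fun b : F => ¬ (lam (b * y) ≠ 0))).card = Fintype.card F := by
    have := card_filter_add_card_filter_not (s := (univ : Finset F))
      (fun b : F => lam (b * y) ≠ 0)
    simpa using this
  have hle : (univ.filter (fun b : F => ¬ (lam (b * y) ≠ 0))).card ≤ B1.card := by
    apply card_le_card_of_injOn (fun b => b + y⁻¹)
    · intro b hb
      simp only [coe_filter, mem_univ, true_and, Set.mem_ofPred_eq, not_not] at hb
      simp only [hB1, coe_filter, mem_univ, true_and, Set.mem_ofPred_eq]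
      rw [add_mul, inv_mul_cancel₀ hy, map_add, hb, zero_add]
      exact hlam
    · intro a _ b _ hab
      exact add_right_cancel hab
  omega

/-- A word of the dual code. -/
def wordOf (lam : F →ₗ[ZMod 2] ZMod 2) {κ : ℕ} (c : Fin κ → Fin κ → F) : F × F × F → ZMod 2 :=
  fun p => lam (p.2.2 * evalP c p.1 p.2.1)

/-- Words are linear in the coefficient array. -/
theorem evalP_add {κ : ℕ} (c d : Fin κ → Fin κ → F) (u v : F) :
    evalP (c + d) u v = evalP c u v + evalP d u v := by
  simp only [evalP, Pi.add_apply, add_mul, sum_add_distrib]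

theorem evalP_smul {κ : ℕ} (a : ZMod 2) (c : Fin κ → Fin κ → F) (u v : F) :
    evalP (a • c) u v = a • evalP c u v := by
  simp only [evalP, Pi.smul_apply, smul_sum, smul_mul_assoc]

/-- The word map as a linear map. -/
def wordL (lam : F →ₗ[ZMod 2] ZMod 2) (κ : ℕ) :
    (Fin κ → Fin κ → F) →ₗ[ZMod 2] (F × F × F → ZMod 2) where
  toFun := wordOf lam
  map_add' := by
    intro c d
    funext p
    simp [wordOf, evalP_add, mul_add]
  map_smul' := by
    intro a c
    funext p
    simp [wordOf, evalP_smul]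

/-- Distance of the dual code. -/
theorem wt_word_lower (lam : F →ₗ[ZMod 2] ZMod 2) (hlam : lam 1 ≠ 0) {κ : ℕ}
    (c : Fin κ → Fin κ → F) (hc : c ≠ 0) :
    (Fintype.card F - κ) ^ 2 * Fintype.card F ≤
      2 * (univ.filter (fun p : F × F × F => wordOf lam c p ≠ 0)).card := by
  classical
  set N := univ.filter (fun p : F × F => evalP c p.1 p.2 ≠ 0) with hN
  set W : F × F → Finset F := fun p => univ.filter (fun b : F => lam (b * evalP c p.1 p.2) ≠ 0) with hW
  have h1 : N.card * Fintype.card F ≤ 2 * (N.sigma W).card := by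
    rw [card_sigma, mul_sum]
    calc N.card * Fintype.card F = ∑ p ∈ N, Fintype.card F := by simp
      _ ≤ ∑ p ∈ N, 2 * (W p).card := by
        apply sum_le_sum
        intro p hp
        exact half_card lam hlam (mem_filter.1 hp).2
  have h2 : (N.sigma W).card ≤ (univ.filter (fun p : F × F × F => wordOf lam c p ≠ 0)).card := by
    apply card_le_card_of_injOn (fun q => (q.1.1, q.1.2, q.2))
    · rintro ⟨⟨u, v⟩, b⟩ hq
      simp only [coe_sigma, Set.mem_sigma_iff, mem_coe] at hq
      exact mem_coe.2 (mem_filter.2 ⟨mem_univ _, (mem_filter.1 hq.2).2⟩)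
    · rintro ⟨⟨u, v⟩, b⟩ _ ⟨⟨u', v'⟩, b'⟩ _ h
      simp only [Prod.mk.injEq] at h
      obtain ⟨h1, h2, h3⟩ := h
      subst h1 h2 h3
      rfl
  have h3 := bivariate_nonroots c hc
  calc (Fintype.card F - κ) ^ 2 * Fintype.card F ≤ N.card * Fintype.card F :=
        Nat.mul_le_mul_right _ h3
    _ ≤ 2 * (N.sigma W).card := h1
    _ ≤ _ := Nat.mul_le_mul_left _ h2

/-- Pairing a word with a point. -/
theorem word_dot (lam : F →ₗ[ZMod 2] ZMod 2) {κ : ℕ} (c : Fin κ → Fin κ → F)
    (x : F × F × F → ZMod 2) :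
    (wordOf lam c) ⬝ᵥ x = lam (∑ i, ∑ j, c i j *
      ∑ p : F × F × F, (if x p = 1 then p.2.2 * p.1 ^ (i : ℕ) * p.2.1 ^ (j : ℕ) else 0)) := by
  classical
  have h1 : ∀ p : F × F × F, wordOf lam c p * x p =
      lam (if x p = 1 then p.2.2 * evalP c p.1 p.2.1 else 0) := by
    intro p
    have hxp : x p = 0 ∨ x p = 1 := by
      generalize x p = a
      revert a
      decide
    rcases hxp with h | h <;> simp [wordOf, h]
  simp only [dotProduct, h1]
  rw [← map_sum]
  congr 1
  have h2 : ∀ p : F × F × F, (if x p = 1 then p.2.2 * evalP c p.1 p.2.1 else 0) =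
      ∑ i, ∑ j, c i j * (if x p = 1 then p.2.2 * p.1 ^ (i : ℕ) * p.2.1 ^ (j : ℕ) else 0) := by
    intro p
    by_cases h : x p = 1
    · simp only [h, if_true, evalP, mul_sum]
      apply sum_congr rfl
      intro i _
      apply sum_congr rfl
      intro j _
      ring
    · simp [h]
  simp only [h2]
  rw [sum_comm]
  apply sum_congr rfl
  intro i _
  rw [sum_comm]
  apply sum_congr rfl
  intro j _
  rw [mul_sum]

/-- The code is exactly the orthogonal of the range of the word map. -/
theorem mem_perp_iff (lam : F →ₗ[ZMod 2] ZMod 2) (hlam : lam 1 ≠ 0) {κ : ℕ}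
    (x : F × F × F → ZMod 2) :
    (∀ c : Fin κ → Fin κ → F, (wordOf lam c) ⬝ᵥ x = 0) ↔ InCode F κ x := by
  classical
  constructor
  · intro h i j hi hj
    by_contra hne
    set y := ∑ p : F × F × F, (if x p = 1 then p.2.2 * p.1 ^ i * p.2.1 ^ j else 0) with hy
    set c : Fin κ → Fin κ → F := fun i' j' => if (i' : ℕ) = i ∧ (j' : ℕ) = j then y⁻¹ else 0 with hc
    have h1 := h c
    rw [word_dot] at h1
    apply hlam
    have h2 : (∑ i', ∑ j', c i' j' *
        ∑ p : F × F × F, (if x p = 1 then p.2.2 * p.1 ^ (i' : ℕ) * p.2.1 ^ (j' : ℕ) else 0)) = 1 := by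
      rw [Finset.sum_eq_single (⟨i, hi⟩ : Fin κ)]
      · rw [Finset.sum_eq_single (⟨j, hj⟩ : Fin κ)]
        · simp only [hc, and_self, if_true]
          rw [← hy]
          exact inv_mul_cancel₀ hne
        · intro j' _ hj'
          have : ¬ ((j' : ℕ) = j) := fun e => hj' (Fin.ext e)
          simp [hc, this]
        · simp
      · intro i' _ hi'
        have : ¬ ((i' : ℕ) = i) := fun e => hi' (Fin.ext e)
        simp [hc, this]
      · simp
    rwa [h2] at h1
  · intro h c
    rw [word_dot]
    have : (∑ i, ∑ j, c i j *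
        ∑ p : F × F × F, (if x p = 1 then p.2.2 * p.1 ^ (i : ℕ) * p.2.1 ^ (j : ℕ) else 0)) = 0 := by
      apply sum_eq_zero
      intro i _
      apply sum_eq_zero
      intro j _
      rw [h i j i.2 j.2, mul_zero]
    rw [this, map_zero]

end Code

/-- `b ^ ℓ ≤ choose r ℓ` when `b * ℓ ≤ r`. -/
theorem pow_le_choose_of_mul_le {b : ℕ} (hb : 1 ≤ b) :
    ∀ (ℓ r : ℕ), b * ℓ ≤ r → b ^ ℓ ≤ r.choose ℓ := by
  intro ℓ
  induction ℓ with
  | zero => intro r _; simp
  | succ ℓ ih =>
    intro r hr
    have hr1 : 1 ≤ r := by nlinarith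
    obtain ⟨r', rfl⟩ : ∃ r', r = r' + 1 := ⟨r - 1, by omega⟩
    have h1 : b * ℓ ≤ r' := by nlinarith
    have h2 := ih r' h1
    have h3 := Nat.add_one_mul_choose_eq r' ℓ
    have h4 : (ℓ + 1) * b ^ (ℓ + 1) ≤ (ℓ + 1) * (r' + 1).choose (ℓ + 1) := by
      calc (ℓ + 1) * b ^ (ℓ + 1) = (b * (ℓ + 1)) * b ^ ℓ := by ring
        _ ≤ (r' + 1) * r'.choose ℓ := Nat.mul_le_mul hr h2
        _ = (ℓ + 1) * (r' + 1).choose (ℓ + 1) := by rw [h3]; ring
    exact Nat.le_of_mul_le_mul_left h4 (by omega)

/-- The arithmetic of the final step. -/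
theorem arith_final {m κ s : ℕ} (hm : 2 ≤ m) (hκ : κ = 2 ^ (m - 1)) (hs : 16 * s ^ 2 ≤ κ ^ 3 * m) :
    ∃ ℓ, 2 * ℓ * s < κ ^ 3 ∧ 2 ^ s ≤ (κ ^ 2 * m).choose ℓ := by
  set h := m / 2 with hh
  have hh1 : 1 ≤ h := by omega
  have hm3 : m ≤ 3 * h := by omega
  have hm2h : 2 * h ≤ m := by omega
  have hκ2 : 2 ≤ κ := by
    rw [hκ]
    calc 2 = 2 ^ 1 := by norm_num
      _ ≤ 2 ^ (m - 1) := Nat.pow_le_pow_right (by norm_num) (by omega)
  have hmκ : m ≤ κ := by
    rw [hκ]
    obtain ⟨k, rfl⟩ : ∃ k, m = k + 1 := ⟨m - 1, by omega⟩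
    simp only [Nat.add_sub_cancel]
    exact Nat.lt_two_pow_self
  have hκ3 : κ ≤ κ ^ 3 := by nlinarith [Nat.pow_le_pow_right (show 1 ≤ κ by omega) (show 1 ≤ 3 by norm_num)]
  set b := 2 ^ h with hb
  have hb1 : 1 ≤ b := Nat.one_le_two_pow
  have hb2 : b ^ 2 ≤ 2 * κ := by
    have h1 : b ^ 2 = 2 ^ (2 * h) := by rw [hb, ← pow_mul, mul_comm]
    have h2 : 2 * κ = 2 ^ m := by
      rw [hκ]
      obtain ⟨k, rfl⟩ : ∃ k, m = k + 1 := ⟨m - 1, by omega⟩
      simp only [Nat.add_sub_cancel]
      ring
    rw [h1, h2]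
    exact Nat.pow_le_pow_right (by norm_num) hm2h
  refine ⟨s / h + 1, ?_, ?_⟩
  · -- the degree budget
    have hdiv : h * (s / h) ≤ s := Nat.mul_div_le s h
    have h16 : 16 * s < 5 * κ ^ 3 := by
      by_contra hcon
      push Not at hcon
      have h1 : (5 * κ ^ 3) ^ 2 ≤ (16 * s) ^ 2 := Nat.pow_le_pow_left hcon 2
      have h2 : 25 * κ ^ 3 * κ ^ 3 ≤ 16 * κ ^ 3 * m := by nlinarith
      have h3 : 25 * κ ^ 3 ≤ 16 * m := by
        have hpos : 0 < κ ^ 3 := by positivity
        have : κ ^ 3 * (25 * κ ^ 3) ≤ κ ^ 3 * (16 * m) := by nlinarith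
        exact Nat.le_of_mul_le_mul_left this hpos
      omega
    have hkey : h * (2 * (s / h + 1) * s) < h * κ ^ 3 := by
      generalize κ ^ 3 = Y at *
      generalize hX : h * (s / h) = X at *
      have h1 : h * (2 * (s / h + 1) * s) = 2 * (X * s) + 2 * (h * s) := by
        rw [← hX]; ring
      have h2 : X * s ≤ s * s := Nat.mul_le_mul_right s hdiv
      have h3 : 16 * (s * s) ≤ Y * m := by
        have : s ^ 2 = s * s := by ring
        omega
      have h4 : Y * m ≤ 3 * (h * Y) := by
        calc Y * m ≤ Y * (3 * h) := Nat.mul_le_mul_left _ hm3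
          _ = 3 * (h * Y) := by ring
      have h5 : 16 * (h * s) + h ≤ 5 * (h * Y) := by
        have h6 : h * (16 * s + 1) ≤ h * (5 * Y) := Nat.mul_le_mul_left _ h16
        have e1 : h * (16 * s + 1) = 16 * (h * s) + h := by ring
        have e2 : h * (5 * Y) = 5 * (h * Y) := by ring
        omega
      rw [h1]
      omega
    exact Nat.lt_of_mul_lt_mul_left hkey
  · -- the count
    have hpw : s ≤ h * (s / h + 1) := by
      have := Nat.div_add_mod s h
      have h2 := Nat.mod_lt s (show h > 0 by omega)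
      rw [mul_add, mul_one]
      omega
    have hmain : b * (s / h + 1) ≤ κ ^ 2 * m := by
      have h1 : (2 * (b * s)) ^ 2 * 2 ≤ (h * (κ ^ 2 * m)) ^ 2 := by
        have e1 : (2 * (b * s)) ^ 2 * 2 = 8 * (b ^ 2 * s ^ 2) := by ring
        have e2 : b ^ 2 * s ^ 2 ≤ 2 * κ * s ^ 2 := Nat.mul_le_mul_right _ hb2
        have e3 : 8 * (2 * κ * s ^ 2) = κ * (16 * s ^ 2) := by ring
        have e4 : κ * (16 * s ^ 2) ≤ κ * (κ ^ 3 * m) := Nat.mul_le_mul_left _ hs
        have e5 : κ * (κ ^ 3 * m) ≤ (h * (κ ^ 2 * m)) ^ 2 := by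
          have : (h * (κ ^ 2 * m)) ^ 2 = h ^ 2 * m * (κ ^ 4 * m) := by ring
          rw [this]
          have h10 : 1 ≤ h ^ 2 * m := by
            have : 1 ≤ h ^ 2 := Nat.one_le_pow _ _ hh1
            nlinarith
          calc κ * (κ ^ 3 * m) = 1 * (κ ^ 4 * m) := by ring
            _ ≤ _ := Nat.mul_le_mul_right _ h10
        omega
      have h2 : 2 * (b * s) ≤ h * (κ ^ 2 * m) := by
        have h3 : (2 * (b * s)) ^ 2 ≤ (h * (κ ^ 2 * m)) ^ 2 := by nlinarith [Nat.zero_le ((2 * (b * s)) ^ 2)]
        exact (Nat.pow_le_pow_iff_left (by norm_num)).1 h3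
      have h3 : h * (2 * (b * (s / h))) ≤ h * (κ ^ 2 * m) := by
        calc h * (2 * (b * (s / h))) = 2 * b * (h * (s / h)) := by ring
          _ ≤ 2 * b * s := Nat.mul_le_mul_left _ (Nat.mul_div_le s h)
          _ = 2 * (b * s) := by ring
          _ ≤ _ := h2
      have h4 : 2 * (b * (s / h)) ≤ κ ^ 2 * m := Nat.le_of_mul_le_mul_left h3 (by omega)
      have h5 : 2 * b ≤ κ ^ 2 * m := by
        have h6 : (2 * b) ^ 2 ≤ (κ ^ 2 * m) ^ 2 := by
          have e1 : (2 * b) ^ 2 = 4 * b ^ 2 := by ring
          have e2 : (κ ^ 2 * m) ^ 2 = κ ^ 4 * m ^ 2 := by ring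
          rw [e1, e2]
          have e3 : 4 * b ^ 2 ≤ 8 * κ := by omega
          have e4 : 4 ≤ m ^ 2 := by nlinarith
          have e5 : 8 * κ ≤ κ ^ 4 * 4 := by
            have : 2 * κ ≤ κ ^ 4 := by
              have h7 : κ ^ 4 = κ * κ ^ 3 := by ring
              rw [h7]
              have h8 : 2 ≤ κ ^ 3 := le_trans hκ2 hκ3
              nlinarith
            omega
          calc 4 * b ^ 2 ≤ 8 * κ := e3
            _ ≤ κ ^ 4 * 4 := e5
            _ ≤ κ ^ 4 * m ^ 2 := Nat.mul_le_mul_left _ e4
        exact (Nat.pow_le_pow_iff_left (by norm_num)).1 h6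
      have h6 : b * (s / h + 1) = b * (s / h) + b := by ring
      omega
    have h1 := pow_le_choose_of_mul_le hb1 (s / h + 1) (κ ^ 2 * m) hmain
    calc 2 ^ s ≤ 2 ^ (h * (s / h + 1)) := Nat.pow_le_pow_right (by norm_num) hpw
      _ = b ^ (s / h + 1) := by rw [hb, pow_mul]
      _ ≤ _ := h1


/-- The lower bound for the explicit code. -/
theorem affine_lower_bound (m : ℕ) (hm : 2 ≤ m) (F : Type) [Field F] [Fintype F] [DecidableEq F]
    [CharP F 2] (hF : Fintype.card F = 2 ^ m) (C : Circuit (F × F × F))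
    (hC : ∀ x, C.val x ↔ InCode F (2 ^ (m - 1)) x) (haff : C.AffineAnds)
    (s : ℕ) (hs : 384 * s ^ 2 ≤ (2 ^ m) ^ 3 * (3 * m)) : 2 ^ s ≤ C.size := by
  classical
  letI : Algebra (ZMod 2) F := ZMod.algebra F 2
  obtain ⟨lam, hlam⟩ : ∃ lam : F →ₗ[ZMod 2] ZMod 2, lam 1 ≠ 0 := by
    by_contra hcon
    push Not at hcon
    have h1 := (Module.forall_dual_apply_eq_zero_iff (ZMod 2) (1 : F)).1 hcon
    exact one_ne_zero h1
  set κ := 2 ^ (m - 1) with hκ
  have hq : Fintype.card F = 2 * κ := by
    rw [hF, hκ]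
    obtain ⟨k, rfl⟩ : ∃ k, m = k + 1 := ⟨m - 1, by omega⟩
    simp only [Nat.add_sub_cancel]
    ring
  have hκpos : 0 < κ := by
    rw [hκ]; positivity
  have hqk : Fintype.card F - κ = κ := by omega
  set D := LinearMap.range (wordL lam κ) with hD
  have hdist0 : ∀ c : Fin κ → Fin κ → F, c ≠ 0 → κ ^ 3 ≤ wt (wordOf lam c) := by
    intro c hc
    have h1 := wt_word_lower lam hlam c hc
    rw [hqk, hq] at h1
    have h2 : κ ^ 2 * (2 * κ) = 2 * κ ^ 3 := by ring
    rw [h2] at h1
    have h3 : wt (wordOf lam c) = (univ.filter (fun p : F × F × F => wordOf lam c p ≠ 0)).card := by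
      unfold wt
      congr
    rw [h3]
    omega
  have hdist : ∀ u ∈ D, u ≠ 0 → κ ^ 3 ≤ wt u := by
    rintro u ⟨c, rfl⟩ hu
    apply hdist0
    rintro rfl
    exact hu (map_zero _)
  have hinj : Function.Injective (wordL lam κ) := by
    rw [← LinearMap.ker_eq_bot, LinearMap.ker_eq_bot']
    intro c hc
    by_contra hne
    have h1 := hdist0 c hne
    have h2 : wordOf lam c = 0 := hc
    rw [h2] at h1
    have h3 : wt (0 : F × F × F → ZMod 2) = 0 := by simp [wt]
    rw [h3] at h1
    have : 0 < κ ^ 3 := by positivity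
    omega
  have hfinF : finrank (ZMod 2) F = m := by
    have h1 := card_eq_pow_finrank (K := ZMod 2) (V := F)
    rw [hF, ZMod.card] at h1
    exact (Nat.pow_right_injective (le_refl 2) h1).symm
  have hrank : finrank (ZMod 2) D = κ ^ 2 * m := by
    rw [hD, LinearMap.finrank_range_of_inj hinj, Module.finrank_pi_fintype]
    simp only [Module.finrank_pi_fintype, hfinF]
    simp
    ring
  have hperp : ∀ x, C.val x ↔ x ∈ perp D := by
    intro x
    rw [hC x, ← mem_perp_iff lam hlam x]
    constructor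
    · rintro h u ⟨c, rfl⟩
      exact h c
    · intro h c
      exact h _ ⟨c, rfl⟩
  by_contra hlt
  push Not at hlt
  have hbot : C.bottom.card < 2 ^ s := by
    unfold Circuit.size at hlt
    omega
  have hmid : C.middle.card < 2 ^ s := by
    unfold Circuit.size at hlt
    omega
  have hs2 : 16 * s ^ 2 ≤ κ ^ 3 * m := by
    have h1 : (2 ^ m) ^ 3 = 8 * κ ^ 3 := by
      have : 2 ^ m = 2 * κ := by rw [← hF]; exact hq
      rw [this]; ring
    rw [h1] at hs
    have h2 : 8 * κ ^ 3 * (3 * m) = 24 * (κ ^ 3 * m) := by ring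
    rw [h2] at hs
    omega
  obtain ⟨ℓ, hl, hch⟩ := arith_final hm hκ hs2
  have hfinal := choose_le_middle D hdist hl C hperp haff hbot
  rw [hrank] at hfinal
  omega

end Vale.Agent.Lib.P336
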